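import Vale.Agent.P181.NR.Defs
import Vale.Agent.P181.R2.H959.FMul

set_option autoImplicit false

/-!
# P181, NR [N4b]: equal blocks (helper124)
-/

namespace Vale.Agent.P181.NR.H124

open Vale.Agent.P181 Vale.Agent.P181.H280 Vale.Agent.P181.H54 Vale.Agent.P181.NR
open Vale.Agent.P181.FR

/-- Degree zero. -/
theorem one_le_zero (a m : ℕ) (mu : Fin m → ℕ) (hmu : ∀ i, mu i = 0) :
    1 ≤ plethMult 0 a m mu := by
  have h0 : mu = 0 := funext hmu
  obtain ⟨y, hy, h1⟩ := Pos.zero a m
  rw [h0]
  let _ := Module.addCommMonoidToAddCommGroup ℂ (M := Pleth 0 a m)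
  have h2 := finrank_le_of_inj (LinearMap.toSpanSingleton ℂ (Pleth 0 a m) y) (⊤ : Submodule ℂ ℂ)
    (hwSpace (0 : Fin m → ℕ) (plethAct 0 a m))
    (fun c _ => Submodule.smul_mem _ c hy)
    (fun c _ hc => (smul_eq_zero.1 (show c • y = 0 from hc)).resolve_right h1)
  rwa [finrank_top, Module.finrank_self] at h2

/-- **(N4b)** equal blocks. -/
theorem powS (h : ZedS) : PowS := by
  intro n B a m al
  induction B with
  | zero =>
    rw [pow_zero, Nat.mul_zero, Nat.factorial_zero, one_mul]
    exact one_le_zero a m _ fun i => Nat.zero_mul _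
  | succ B ih =>
    have h1 := h (n * B) n a m (fun i => B * al i) al
    have h2 : (fun i => (B + 1) * al i) = fun i => B * al i + al i := by
      funext i
      ring
    have h3 : (n * B + n).choose (n * B) * (n * B).factorial * n.factorial =
        (n * B + n).factorial := by
      have := Nat.choose_mul_factorial_mul_factorial (Nat.le_add_right (n * B) n)
      rwa [Nat.add_sub_cancel_left] at this
    rw [Nat.mul_succ, h2, ← h3]
    calc (n.factorial * plethMult n a m al) ^ (B + 1)
        = (n.factorial * plethMult n a m al) ^ B * (n.factorial * plethMult n a m al) :=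
          pow_succ _ _
      _ ≤ (n * B).factorial * plethMult (n * B) a m (fun i => B * al i) *
          (n.factorial * plethMult n a m al) := Nat.mul_le_mul_right _ ih
      _ = (n * B).factorial * n.factorial *
          (plethMult (n * B) a m (fun i => B * al i) * plethMult n a m al) := by ring
      _ ≤ (n * B).factorial * n.factorial * ((n * B + n).choose (n * B) *
          plethMult (n * B + n) a m (fun i => B * al i + al i)) := Nat.mul_le_mul_left _ h1
      _ = _ := by ring

end Vale.Agent.P181.NR.H124
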